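import Mathlib.FieldTheory.Galois.Basic

/-! The definitions used in the statement. -/

namespace Vale.Agent.P024.H555

universe u

/-- `E` has no nontrivial abelian algebraic extension: every Galois extension `L / E` whose Galois
group is commutative is trivial. -/
def SolvablyClosed (E : Type u) [Field E] : Prop :=
  ∀ (L : Type u) [Field L] [Algebra E L] [IsGalois E L],
    (∀ g h : L ≃ₐ[E] L, g * h = h * g) → Function.Surjective (algebraMap E L)

variable {F₁ E₁ F₂ E₂ : Type*} [Field F₁] [Field E₁] [Algebra F₁ E₁] [Field F₂] [Field E₂]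
  [Algebra F₂ E₂]

/-- `j` induces `α` : `g ∘ j = j ∘ α(g)` for all `g`. -/
def Induces (α : (E₁ ≃ₐ[F₁] E₁) → (E₂ ≃ₐ[F₂] E₂)) (j : E₂ →+* E₁) : Prop :=
  ∀ (g : E₁ ≃ₐ[F₁] E₁) (x : E₂), g (j x) = j (α g x)

/-- `j` extends `i`. -/
def Extends (j : E₂ →+* E₁) (i : F₂ →+* F₁) : Prop :=
  ∀ x : F₂, j (algebraMap F₂ E₂ x) = algebraMap F₁ E₁ (i x)

end Vale.Agent.P024.H555
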