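import Vale.Agent.P024.H555.Defs
import Mathlib.FieldTheory.Galois.Infinite
import Mathlib.FieldTheory.Galois.Abelian
import Mathlib.FieldTheory.Galois.Profinite
import Mathlib.FieldTheory.IsAlgClosed.Basic
import Mathlib.NumberTheory.NumberField.Basic
import Mathlib.Topology.Algebra.ContinuousMonoidHom
import Mathlib.Topology.Algebra.Group.ClosedSubgroup
import Mathlib.Tactic

/-! Galois theory around an embedding `j : E₂ → E₁` which induces `α : Gal(E₁/F₁) → Gal(E₂/F₂)`. -/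

namespace Vale.Agent.P024.H555

variable {F₁ E₁ F₂ E₂ : Type*} [Field F₁] [Field E₁] [Algebra F₁ E₁] [Field F₂] [Field E₂]
  [Algebra F₂ E₂]

theorem Extends.unique {j : E₂ →+* E₁} {i i' : F₂ →+* F₁} (h : Extends j i) (h' : Extends j i') : i = i' := by
  ext x
  apply (algebraMap F₁ E₁).injective
  rw [← h x, ← h' x]

theorem Induces.exists_base [IsGalois F₁ E₁] {α : (E₁ ≃ₐ[F₁] E₁) → (E₂ ≃ₐ[F₂] E₂)} {j : E₂ →+* E₁}
    (h : Induces α j) : ∃ i : F₂ →+* F₁, Extends j i := by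
  have h1 : ∀ x : F₂, j (algebraMap F₂ E₂ x) ∈ (algebraMap F₁ E₁).range := by
    intro x
    have := (InfiniteGalois.mem_range_algebraMap_iff_fixed (k := F₁) (K := E₁)
      (j (algebraMap F₂ E₂ x))).2 (fun f => by rw [h f, AlgEquiv.commutes])
    obtain ⟨y, hy⟩ := this
    exact ⟨y, hy⟩
  let e : F₁ ≃+* (algebraMap F₁ E₁).range :=
    RingEquiv.ofBijective (algebraMap F₁ E₁).rangeRestrict
      ⟨fun a b hab => (algebraMap F₁ E₁).injective (congrArg Subtype.val hab),
        (algebraMap F₁ E₁).rangeRestrict_surjective⟩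
  have he : ∀ y, algebraMap F₁ E₁ (e.symm y) = y.1 := by
    intro y
    have := congrArg Subtype.val (e.apply_symm_apply y)
    exact this
  let r : F₂ →+* (algebraMap F₁ E₁).range :=
    (j.comp (algebraMap F₂ E₂)).codRestrict _ h1
  refine ⟨e.symm.toRingHom.comp r, fun x => ?_⟩
  exact (he (r x)).symm

/-- the elements of `E₂` fixed by the image of `α` -/
def pull (α : (E₁ ≃ₐ[F₁] E₁) →* (E₂ ≃ₐ[F₂] E₂)) : IntermediateField F₂ E₂ :=
  IntermediateField.fixedField α.range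

theorem Induces.mem_pull [IsGalois F₁ E₁] {α : (E₁ ≃ₐ[F₁] E₁) →* (E₂ ≃ₐ[F₂] E₂)} {j : E₂ →+* E₁}
    (h : Induces α j) (x : E₂) : x ∈ pull α ↔ j x ∈ Set.range (algebraMap F₁ E₁) := by
  rw [InfiniteGalois.mem_range_algebraMap_iff_fixed, pull, IntermediateField.mem_fixedField_iff]
  constructor
  · intro hx g
    rw [h g, hx (α g) ⟨g, rfl⟩]
  · rintro hx _ ⟨g, rfl⟩
    have := hx g
    rw [h g] at this
    exact j.injective this

theorem Induces.continuous [IsGalois F₁ E₁]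
    {α : (E₁ ≃ₐ[F₁] E₁) →* (E₂ ≃ₐ[F₂] E₂)} {j : E₂ →+* E₁} (h : Induces α j) : Continuous α := by
  refine continuous_of_continuousAt_one α ?_
  rw [ContinuousAt, map_one]
  intro s hs
  rw [krullTopology_mem_nhds_one_iff] at hs
  obtain ⟨L, hL, hsub⟩ := hs
  rw [Filter.mem_map, krullTopology_mem_nhds_one_iff]
  let b := Module.finBasis F₂ L
  let T : Set E₁ := Set.range fun k => j (b k)
  have hT : T.Finite := Set.finite_range _
  refine ⟨IntermediateField.adjoin F₁ T, ?_, ?_⟩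
  · have := hT.to_subtype
    exact IntermediateField.finiteDimensional_adjoin
      fun x _ => (Algebra.IsAlgebraic.isAlgebraic (R := F₁) x).isIntegral
  · intro g hg
    apply hsub
    rw [SetLike.mem_coe, IntermediateField.mem_fixingSubgroup_iff] at hg ⊢
    have h1 : ∀ k, α g (b k : E₂) = b k := by
      intro k
      apply j.injective
      rw [← h g]
      exact hg _ (IntermediateField.subset_adjoin F₁ T ⟨k, rfl⟩)
    intro x hx
    have h2 : ((α g).toLinearMap.comp L.val.toLinearMap) = L.val.toLinearMap :=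
      b.ext fun k => h1 k
    exact LinearMap.congr_fun h2 ⟨x, hx⟩

theorem isClosed_range [IsGalois F₁ E₁] [IsGalois F₂ E₂]
    (α : (E₁ ≃ₐ[F₁] E₁) →* (E₂ ≃ₐ[F₂] E₂)) (hα : Continuous α) :
    IsClosed (α.range : Set (E₂ ≃ₐ[F₂] E₂)) := by
  rw [MonoidHom.coe_range]
  exact (isCompact_range hα).isClosed

theorem range_eq [IsGalois F₁ E₁] [IsGalois F₂ E₂]
    (α : (E₁ ≃ₐ[F₁] E₁) →* (E₂ ≃ₐ[F₂] E₂)) (hα : Continuous α) :
    α.range = (pull α).fixingSubgroup := by
  have := InfiniteGalois.fixingSubgroup_fixedField (k := F₂) (K := E₂)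
    ⟨α.range, isClosed_range α hα⟩
  exact this.symm

theorem Induces.mem_range [IsGalois F₁ E₁] [IsGalois F₂ E₂]
    {α : (E₁ ≃ₐ[F₁] E₁) →* (E₂ ≃ₐ[F₂] E₂)} {j : E₂ →+* E₁} (h : Induces α j) (s : E₂ ≃ₐ[F₂] E₂) :
    s ∈ Set.range α ↔ ∀ x : E₂, j x ∈ Set.range (algebraMap F₁ E₁) → s x = x := by
  have h1 : s ∈ Set.range α ↔ s ∈ α.range := Iff.rfl
  rw [h1, range_eq α h.continuous, IntermediateField.mem_fixingSubgroup_iff]
  constructor
  · exact fun hs x hx => hs x ((h.mem_pull x).2 hx)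
  · exact fun hs x hx => hs x ((h.mem_pull x).1 hx)

theorem Induces.ker_iff {α : (E₁ ≃ₐ[F₁] E₁) →* (E₂ ≃ₐ[F₂] E₂)} {j : E₂ →+* E₁} (h : Induces α j)
    (g : E₁ ≃ₐ[F₁] E₁) : α g = 1 ↔ ∀ x : E₂, g (j x) = j x := by
  constructor
  · intro hg x
    rw [h g, hg]; rfl
  · intro hg
    ext x
    apply j.injective
    rw [← h g, hg]; rfl

/-- the restriction of `j` to `pull α` -/
theorem Induces.exists_restrict [IsGalois F₁ E₁] {α : (E₁ ≃ₐ[F₁] E₁) →* (E₂ ≃ₐ[F₂] E₂)}
    {j : E₂ →+* E₁} (h : Induces α j) :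
    ∃ r : pull α →+* F₁, ∀ x : pull α, algebraMap F₁ E₁ (r x) = j x := by
  have h1 : ∀ x : pull α, j x ∈ (algebraMap F₁ E₁).range := by
    intro x
    obtain ⟨y, hy⟩ := (h.mem_pull x).1 x.2
    exact ⟨y, hy⟩
  let e : F₁ ≃+* (algebraMap F₁ E₁).range :=
    RingEquiv.ofBijective (algebraMap F₁ E₁).rangeRestrict
      ⟨fun a b hab => (algebraMap F₁ E₁).injective (congrArg Subtype.val hab),
        (algebraMap F₁ E₁).rangeRestrict_surjective⟩
  have he : ∀ y, algebraMap F₁ E₁ (e.symm y) = y.1 := by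
    intro y
    have := congrArg Subtype.val (e.apply_symm_apply y)
    exact this
  let q : pull α →+* (algebraMap F₁ E₁).range := (j.comp (pull α).val.toRingHom).codRestrict _ h1
  exact ⟨e.symm.toRingHom.comp q, fun x => he (q x)⟩

theorem finite_of_hom (P : Type*) [Field P] [Algebra F₂ P] [NumberField F₁] [CharZero F₂]
    (r : P →+* F₁) :
    FiniteDimensional F₂ P ∧
      Module.finrank F₂ P * Module.finrank ℚ F₂ ∣ Module.finrank ℚ F₁ := by
  have hP : CharZero P := charZero_of_injective_algebraMap (algebraMap F₂ P).injective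
  let _ : Algebra P F₁ := r.toAlgebra
  have t1 : IsScalarTower ℚ P F₁ := inferInstance
  have t2 : IsScalarTower ℚ F₂ P := inferInstance
  have f1 : FiniteDimensional ℚ P := FiniteDimensional.left ℚ P F₁
  have f2 : FiniteDimensional F₂ P := FiniteDimensional.right ℚ F₂ P
  refine ⟨f2, ?_⟩
  rw [mul_comm, Module.finrank_mul_finrank ℚ F₂ P, ← Module.finrank_mul_finrank ℚ P F₁]
  exact Dvd.intro _ rfl

theorem Induces.open_range [IsGalois F₁ E₁] [IsGalois F₂ E₂] [NumberField F₁] [CharZero F₂]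
    {α : (E₁ ≃ₐ[F₁] E₁) →* (E₂ ≃ₐ[F₂] E₂)} {j : E₂ →+* E₁} (h : Induces α j) :
    IsOpen (Set.range α) ∧ α.range.index ≠ 0 ∧
      α.range.index * Module.finrank ℚ F₂ ∣ Module.finrank ℚ F₁ := by
  obtain ⟨r, -⟩ := h.exists_restrict
  obtain ⟨hf, hd⟩ := finite_of_hom (F₂ := F₂) (pull α) r
  have hr := range_eq α h.continuous
  have hi : α.range.index = Module.finrank F₂ (pull α) := by
    rw [hr, IntermediateField.finrank_eq_fixingSubgroup_index]
  refine ⟨?_, ?_, ?_⟩
  · rw [← MonoidHom.coe_range, hr]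
    exact IntermediateField.fixingSubgroup_isOpen _
  · rw [hi]
    exact Module.finrank_pos.ne'
  · rw [hi]
    exact hd

theorem Induces.index_eq [IsGalois F₁ E₁] [IsGalois F₂ E₂] [NumberField F₁] [CharZero F₂]
    {α : (E₁ ≃ₐ[F₁] E₁) →* (E₂ ≃ₐ[F₂] E₂)} {j : E₂ →+* E₁} (h : Induces α j)
    (hj : Function.Surjective j) :
    α.range.index * Module.finrank ℚ F₂ = Module.finrank ℚ F₁ := by
  obtain ⟨r, hr⟩ := h.exists_restrict
  have hs : Function.Surjective r := by
    intro y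
    obtain ⟨x, hx⟩ := hj (algebraMap F₁ E₁ y)
    refine ⟨⟨x, (h.mem_pull x).2 ⟨y, hx.symm⟩⟩, ?_⟩
    apply (algebraMap F₁ E₁).injective
    rw [hr]
    exact hx
  have hP : CharZero (pull α) := charZero_of_injective_algebraMap (algebraMap F₂ _).injective
  let e : pull α ≃+* F₁ := RingEquiv.ofBijective r ⟨r.injective, hs⟩
  have he : Module.finrank ℚ (pull α) = Module.finrank ℚ F₁ :=
    (AlgEquiv.ofRingEquiv (f := e) (fun q => by simp) : pull α ≃ₐ[ℚ] F₁).toLinearEquiv.finrank_eq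
  have hi : α.range.index = Module.finrank F₂ (pull α) := by
    rw [range_eq α h.continuous, IntermediateField.finrank_eq_fixingSubgroup_index]
  rw [hi, ← he, mul_comm, Module.finrank_mul_finrank ℚ F₂ (pull α)]

theorem surjective_of_isAlgClosed [NumberField F₁] [IsGalois F₁ E₁] [IsAlgClosed E₂]
    (j : E₂ →+* E₁) : Function.Surjective j := by
  have hc₁ : CharZero E₁ := charZero_of_injective_algebraMap (algebraMap F₁ E₁).injective
  have hc₂ : CharZero E₂ := j.charZero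
  let _ : Algebra E₂ E₁ := j.toAlgebra
  have t1 : IsScalarTower ℚ F₁ E₁ := inferInstance
  have t2 : IsScalarTower ℚ E₂ E₁ := inferInstance
  have a1 : Algebra.IsAlgebraic ℚ E₁ := Algebra.IsAlgebraic.trans ℚ F₁ E₁
  have a2 : Algebra.IsAlgebraic E₂ E₁ := Algebra.IsAlgebraic.tower_top (K := ℚ) E₂
  exact (IsAlgClosed.algebraMap_bijective_of_isIntegral (k := E₂) (K := E₁)).2

theorem Induces.injective {α : (E₁ ≃ₐ[F₁] E₁) →* (E₂ ≃ₐ[F₂] E₂)} {j : E₂ →+* E₁}
    (h : Induces α j) (hj : Function.Surjective j) : Function.Injective α := by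
  rw [injective_iff_map_eq_one]
  intro g hg
  ext y
  obtain ⟨x, rfl⟩ := hj y
  exact (h.ker_iff g).1 hg x

/-- Two embeddings `E₂ → E₁` which agree on `F₂` differ by an element of `Gal(E₂/F₂)`. -/
theorem exists_conj [IsGalois F₂ E₂] {j j' : E₂ →+* E₁} {i : F₂ →+* F₁} (h : Extends j i)
    (h' : Extends j' i) : ∃ s : E₂ ≃ₐ[F₂] E₂, ∀ x, j' x = j (s x) := by
  let _ : Algebra F₂ E₁ := ((algebraMap F₁ E₁).comp i).toAlgebra
  let J : E₂ →ₐ[F₂] E₁ := { j with commutes' := h }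
  let J' : E₂ →ₐ[F₂] E₁ := { j' with commutes' := h' }
  let e : E₂ ≃ₐ[F₂] J.fieldRange := AlgEquiv.ofInjectiveField J
  have hn : Normal F₂ J.fieldRange := Normal.of_algEquiv e
  have hr := AlgHom.fieldRange_of_normal (J'.comp e.symm.toAlgHom)
  have hr' : J'.fieldRange = J.fieldRange := by
    rw [← hr]
    ext x
    constructor
    · rintro ⟨y, rfl⟩
      exact ⟨e y, by simp⟩
    · rintro ⟨y, rfl⟩
      exact ⟨e.symm y, rfl⟩
  let e' : E₂ ≃ₐ[F₂] J'.fieldRange := AlgEquiv.ofInjectiveField J'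
  refine ⟨e'.trans ((IntermediateField.equivOfEq hr').trans e.symm), fun x => ?_⟩
  have h1 : ∀ y : J.fieldRange, J (e.symm y) = y := by
    intro y
    have := congrArg Subtype.val (e.apply_symm_apply y)
    exact this
  have h2 := h1 (IntermediateField.equivOfEq hr' (e' x))
  exact h2.symm

theorem Induces.conj {α α' : (E₁ ≃ₐ[F₁] E₁) → (E₂ ≃ₐ[F₂] E₂)} {j j' : E₂ →+* E₁} (h : Induces α j)
    (h' : Induces α' j') (s : E₂ ≃ₐ[F₂] E₂) (hs : ∀ x, j' x = j (s x)) (g : E₁ ≃ₐ[F₁] E₁) :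
    α' g = s⁻¹ * α g * s := by
  have h1 : ∀ x, s (α' g x) = α g (s x) := by
    intro x
    apply j.injective
    rw [← h g, ← hs, ← hs, ← h' g]
  ext x
  rw [AlgEquiv.mul_apply, AlgEquiv.mul_apply, ← h1 x]
  exact (s.symm_apply_apply _).symm

/-- Every embedding which extends an embedding of the base fields induces a homomorphism. -/
theorem exists_ind [IsGalois F₂ E₂] {j : E₂ →+* E₁} {i : F₂ →+* F₁} (h : Extends j i) :
    ∃ α : (E₁ ≃ₐ[F₁] E₁) →* (E₂ ≃ₐ[F₂] E₂), Induces α j := by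
  have h1 : ∀ g : E₁ ≃ₐ[F₁] E₁, ∃ s : E₂ ≃ₐ[F₂] E₂, ∀ x, g (j x) = j (s x) := by
    intro g
    have := exists_conj (F₁ := F₁) (F₂ := F₂) (j := j) (j' := (g : E₁ →+* E₁).comp j) h
      (fun x => by
        change g (j _) = _
        rw [h x, AlgEquiv.commutes])
    exact this
  choose a ha using h1
  refine ⟨{ toFun := a, map_one' := ?_, map_mul' := ?_ }, ha⟩
  · ext x
    apply j.injective
    rw [← ha]; rfl
  · intro g g'
    ext x
    apply j.injective
    rw [← ha, AlgEquiv.mul_apply, AlgEquiv.mul_apply, ha g', ha g]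

end Vale.Agent.P024.H555
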