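import Vale.Agent.P024.H555.Gal

/-! Endomorphisms, homomorphisms in both directions, and the bijection with embeddings. -/

namespace Vale.Agent.P024.H555

section Endo

variable {F E : Type*} [Field F] [NumberField F] [Field E] [Algebra F E] [IsGalois F E]

theorem Extends.surj {j : E →+* E} {i : F →+* F} (h : Extends j i) :
    Function.Surjective i ∧ Function.Surjective j := by
  let a : F →ₐ[ℚ] F := { i with commutes' := fun q => by simp }
  have hb : Function.Bijective a := Algebra.IsAlgebraic.algHom_bijective a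
  let e : F ≃ₐ[ℚ] F := AlgEquiv.ofBijective a hb
  refine ⟨hb.2, ?_⟩
  obtain ⟨k, hk, hek⟩ : ∃ k, 0 < k ∧ e ^ k = 1 :=
    ⟨orderOf e, orderOf_pos e, pow_orderOf_eq_one e⟩
  have h1 : ∀ n : ℕ, ∀ x : F, (j ^ n) (algebraMap F E x) = algebraMap F E ((e ^ n) x) := by
    intro n
    induction n with
    | zero => intro x; rfl
    | succ n ih =>
      intro x
      rw [pow_succ, pow_succ, RingHom.mul_def, RingHom.comp_apply, AlgEquiv.mul_apply, h x, ih]
      rfl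
  let J : E →ₐ[F] E :=
    { (j ^ k) with
      commutes' := fun x => by
        have := h1 k x
        rw [hek] at this
        exact this }
  have hJ : Function.Bijective J := Algebra.IsAlgebraic.algHom_bijective J
  intro y
  obtain ⟨x, hx⟩ := hJ.2 y
  have hx' : (j ^ k) x = y := hx
  obtain ⟨m, rfl⟩ : ∃ m, k = m + 1 := ⟨k - 1, by omega⟩
  rw [pow_succ', RingHom.mul_def, RingHom.comp_apply] at hx'
  exact ⟨_, hx'⟩

theorem Induces.bijective {α : (E ≃ₐ[F] E) →* (E ≃ₐ[F] E)} {j : E →+* E} (h : Induces α j) :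
    Function.Bijective α := by
  obtain ⟨i, hi⟩ := h.exists_base
  obtain ⟨h1, h2⟩ := hi.surj
  constructor
  · rw [injective_iff_map_eq_one]
    intro g hg
    ext y
    obtain ⟨x, rfl⟩ := h2 y
    exact (h.ker_iff g).1 hg x
  · intro s
    have := (h.mem_range s).2 (by
      rintro x ⟨y, hy⟩
      obtain ⟨z, rfl⟩ := h1 y
      rw [← hi z] at hy
      rw [← j.injective hy, AlgEquiv.commutes])
    exact this

end Endo

variable {F₁ E₁ F₂ E₂ : Type*} [Field F₁] [Field E₁] [Algebra F₁ E₁] [Field F₂] [Field E₂]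
  [Algebra F₂ E₂]

theorem Induces.comp {α : (E₁ ≃ₐ[F₁] E₁) →* (E₂ ≃ₐ[F₂] E₂)} {β : (E₂ ≃ₐ[F₂] E₂) →* (E₁ ≃ₐ[F₁] E₁)}
    {j : E₂ →+* E₁} {j' : E₁ →+* E₂} (h : Induces α j) (h' : Induces β j') :
    Induces (β.comp α) (j.comp j') := by
  intro g x
  change g (j (j' x)) = j (j' (β (α g) x))
  rw [h g, h' (α g)]

theorem Induces.both [NumberField F₁] [NumberField F₂] [IsGalois F₁ E₁] [IsGalois F₂ E₂]
    {α : (E₁ ≃ₐ[F₁] E₁) →* (E₂ ≃ₐ[F₂] E₂)} {β : (E₂ ≃ₐ[F₂] E₂) →* (E₁ ≃ₐ[F₁] E₁)}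
    {j : E₂ →+* E₁} {j' : E₁ →+* E₂} (h : Induces α j) (h' : Induces β j') :
    Function.Bijective α ∧ Function.Bijective β := by
  have h1 := (h.comp h').bijective
  have h2 := (h'.comp h).bijective
  rw [MonoidHom.coe_comp] at h1 h2
  exact ⟨⟨h1.1.of_comp, h2.2.of_comp⟩, ⟨h2.1.of_comp, h1.2.of_comp⟩⟩

/-- The homomorphism form of the theorem of Neukirch and Uchida, from Q1. -/
theorem hom_form [NumberField F₁] [NumberField F₂] [IsGalois F₁ E₁] [IsGalois F₂ E₂]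
    (hM : ∀ α : (E₁ ≃ₐ[F₁] E₁) →* (E₂ ≃ₐ[F₂] E₂), Continuous α → IsOpen (Set.range α) →
      ∃! j : E₂ →+* E₁, Induces α j) :
    ∃ Φ : {α : (E₁ ≃ₐ[F₁] E₁) →ₜ* (E₂ ≃ₐ[F₂] E₂) // IsOpen (Set.range α)} → (F₂ →+* F₁),
      (∀ α, ∃ j : E₂ →+* E₁, Induces α.1 j ∧ Extends j (Φ α)) ∧
      (∀ α α', Φ α = Φ α' ↔ ∃ s : E₂ ≃ₐ[F₂] E₂, ∀ g, α'.1 g = s⁻¹ * α.1 g * s) ∧
      Set.range Φ = {i | ∃ j : E₂ →+* E₁, Extends j i} ∧
      (IsAlgClosed E₁ → Function.Surjective Φ) := by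
  have h1 : ∀ α : {α : (E₁ ≃ₐ[F₁] E₁) →ₜ* (E₂ ≃ₐ[F₂] E₂) // IsOpen (Set.range α)},
      ∃ (i : F₂ →+* F₁) (j : E₂ →+* E₁), Induces α.1 j ∧ Extends j i := by
    intro α
    obtain ⟨j, hj, -⟩ := hM α.1.toMonoidHom α.1.continuous_toFun α.2
    have hj' : Induces α.1 j := hj
    obtain ⟨i, hi⟩ := hj'.exists_base
    exact ⟨i, j, hj', hi⟩
  choose Φ hΦ using h1
  have h3 : Set.range Φ = {i | ∃ j : E₂ →+* E₁, Extends j i} := by
    ext i
    constructor
    · rintro ⟨α, rfl⟩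
      obtain ⟨j, hj⟩ := hΦ α
      exact ⟨j, hj.2⟩
    · rintro ⟨j, hj⟩
      obtain ⟨α, hα⟩ := exists_ind hj
      have hc := hα.continuous
      have ho := hα.open_range.1
      refine ⟨⟨⟨α, hc⟩, ho⟩, ?_⟩
      obtain ⟨j', hj', hi'⟩ := hΦ ⟨⟨α, hc⟩, ho⟩
      have : j' = j := (hM α hc ho).unique hj' hα
      subst this
      exact hi'.unique hj
  refine ⟨Φ, hΦ, ?_, h3, ?_⟩
  · intro α α'
    obtain ⟨j, hj, hi⟩ := hΦ α
    obtain ⟨j', hj', hi'⟩ := hΦ α'
    constructor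
    · intro he
      rw [← he] at hi'
      obtain ⟨s, hs⟩ := exists_conj hi hi'
      exact ⟨s, fun g => hj.conj hj' s hs g⟩
    · rintro ⟨s, hs⟩
      have h4 : Induces α'.1 (j.comp (s : E₂ →+* E₂)) := by
        intro g x
        change g (j (s x)) = j (s (α'.1 g x))
        rw [hj g, hs g, AlgEquiv.mul_apply, AlgEquiv.mul_apply]
        congr 1
        exact (s.apply_symm_apply _).symm
      have h5 : j' = j.comp (s : E₂ →+* E₂) :=
        (hM α'.1.toMonoidHom α'.1.continuous_toFun α'.2).unique hj' h4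
      apply Extends.unique (j := j') _ hi'
      intro x
      rw [h5]
      change j (s (algebraMap F₂ E₂ x)) = _
      rw [AlgEquiv.commutes, hi x]
  · intro hc i
    let _ : Algebra F₂ E₁ := ((algebraMap F₁ E₁).comp i).toAlgebra
    let J : E₂ →ₐ[F₂] E₁ := IsAlgClosed.lift
    have hJ : Extends (J : E₂ →+* E₁) i := fun x => J.commutes x
    have h6 : i ∈ Set.range Φ := by
      rw [h3]
      exact ⟨_, hJ⟩
    exact h6

theorem tfae_form [NumberField F₁] [NumberField F₂] [IsGalois F₁ E₁] [IsGalois F₂ E₂]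
    (hM : ∀ α : (E₁ ≃ₐ[F₁] E₁) →* (E₂ ≃ₐ[F₂] E₂), Continuous α → IsOpen (Set.range α) →
      ∃! j : E₂ →+* E₁, Induces α j) (α : (E₁ ≃ₐ[F₁] E₁) →ₜ* (E₂ ≃ₐ[F₂] E₂)) :
    List.TFAE [∃ j : E₂ →+* E₁, Induces α j, IsOpen (Set.range α),
      α.toMonoidHom.range.FiniteIndex] := by
  tfae_have 1 → 3 := by
    rintro ⟨j, hj⟩
    have hj' : Induces α.toMonoidHom j := hj
    exact ⟨hj'.open_range.2.1⟩
  tfae_have 3 → 2 := by
    intro h
    have hc := isClosed_range α.toMonoidHom α.continuous_toFun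
    exact Subgroup.isOpen_of_isClosed_of_finiteIndex _ hc
  tfae_have 2 → 1 := fun h => (hM α.toMonoidHom α.continuous_toFun h).exists
  tfae_finish

theorem Induces.of_bijective {α : (E₁ ≃ₐ[F₁] E₁) →* (E₂ ≃ₐ[F₂] E₂)} [IsGalois F₁ E₁]
    [IsGalois F₂ E₂] {j : E₂ →+* E₁} {i : F₂ →+* F₁} (h : Induces α j) (hi : Extends j i)
    (h1 : Function.Bijective j) (h2 : Function.Bijective i) : Function.Bijective α := by
  constructor
  · rw [injective_iff_map_eq_one]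
    intro g hg
    ext y
    obtain ⟨x, rfl⟩ := h1.2 y
    exact (h.ker_iff g).1 hg x
  · intro s
    have := (h.mem_range s).2 (by
      rintro x ⟨y, hy⟩
      obtain ⟨z, rfl⟩ := h2.2 y
      rw [← hi z] at hy
      rw [← j.injective hy, AlgEquiv.commutes])
    exact this

theorem Induces.bijective_iff [IsGalois F₁ E₁] [IsGalois F₂ E₂]
    (h21 : ∀ β : (E₂ ≃ₐ[F₂] E₂) →* (E₁ ≃ₐ[F₁] E₁), Continuous β → IsOpen (Set.range β) →
      ∃! j : E₁ →+* E₂, Induces β j)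
    (h11 : ∀ β : (E₁ ≃ₐ[F₁] E₁) →* (E₁ ≃ₐ[F₁] E₁), Continuous β → IsOpen (Set.range β) →
      ∃! j : E₁ →+* E₁, Induces β j)
    (h22 : ∀ β : (E₂ ≃ₐ[F₂] E₂) →* (E₂ ≃ₐ[F₂] E₂), Continuous β → IsOpen (Set.range β) →
      ∃! j : E₂ →+* E₂, Induces β j)
    {α : (E₁ ≃ₐ[F₁] E₁) →* (E₂ ≃ₐ[F₂] E₂)} {j : E₂ →+* E₁} {i : F₂ →+* F₁} (h : Induces α j)
    (hi : Extends j i) : Function.Bijective α ↔ Function.Bijective j ∧ Function.Bijective i := by
  refine ⟨fun hb => ?_, fun hb => h.of_bijective hi hb.1 hb.2⟩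
  let e : (E₁ ≃ₐ[F₁] E₁) ≃* (E₂ ≃ₐ[F₂] E₂) := MulEquiv.ofBijective α hb
  have hc : Continuous e.symm :=
    (Continuous.homeoOfEquivCompactToT2 (f := e.toEquiv) h.continuous).symm.continuous
  have ho : IsOpen (Set.range e.symm.toMonoidHom) := by
    have : Set.range e.symm.toMonoidHom = Set.univ := e.symm.surjective.range_eq
    rw [this]
    exact isOpen_univ
  obtain ⟨j', hj', -⟩ := h21 e.symm.toMonoidHom hc ho
  obtain ⟨i', hi'⟩ := hj'.exists_base
  have hid1 : Induces (MonoidHom.id (E₁ ≃ₐ[F₁] E₁)) (RingHom.id E₁) := fun g x => rfl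
  have hid2 : Induces (MonoidHom.id (E₂ ≃ₐ[F₂] E₂)) (RingHom.id E₂) := fun g x => rfl
  have hr1 : IsOpen (Set.range (MonoidHom.id (E₁ ≃ₐ[F₁] E₁))) := by
    have : Set.range (MonoidHom.id (E₁ ≃ₐ[F₁] E₁)) = Set.univ := Function.surjective_id.range_eq
    rw [this]
    exact isOpen_univ
  have hr2 : IsOpen (Set.range (MonoidHom.id (E₂ ≃ₐ[F₂] E₂))) := by
    have : Set.range (MonoidHom.id (E₂ ≃ₐ[F₂] E₂)) = Set.univ := Function.surjective_id.range_eq
    rw [this]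
    exact isOpen_univ
  have hc1 : Induces (MonoidHom.id (E₁ ≃ₐ[F₁] E₁)) (j.comp j') := by
    intro g x
    have := h.comp hj' g x
    rw [this]
    have h3 : e.symm.toMonoidHom.comp α g = g := e.symm_apply_apply g
    rw [h3]; rfl
  have hc2 : Induces (MonoidHom.id (E₂ ≃ₐ[F₂] E₂)) (j'.comp j) := by
    intro g x
    have := hj'.comp h g x
    rw [this]
    have h3 : α.comp e.symm.toMonoidHom g = g := e.apply_symm_apply g
    rw [h3]; rfl
  have e1 : j.comp j' = RingHom.id E₁ := (h11 _ continuous_id hr1).unique hc1 hid1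
  have e2 : j'.comp j = RingHom.id E₂ := (h22 _ continuous_id hr2).unique hc2 hid2
  have i1 : i.comp i' = RingHom.id F₁ := by
    have h4 : Extends (RingHom.id E₁) (RingHom.id F₁) := fun x => rfl
    refine Extends.unique (j := RingHom.id E₁) ?_ h4
    intro x
    rw [← e1]
    change j (j' (algebraMap F₁ E₁ x)) = algebraMap F₁ E₁ (i (i' x))
    rw [hi' x, hi (i' x)]
  have i2 : i'.comp i = RingHom.id F₂ := by
    have h4 : Extends (RingHom.id E₂) (RingHom.id F₂) := fun x => rfl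
    refine Extends.unique (j := RingHom.id E₂) ?_ h4
    intro x
    rw [← e2]
    change j' (j (algebraMap F₂ E₂ x)) = algebraMap F₂ E₂ (i' (i x))
    rw [hi x, hi' (i x)]
  refine ⟨⟨j.injective, fun y => ⟨j' y, RingHom.congr_fun e1 y⟩⟩,
    ⟨i.injective, fun y => ⟨i' y, RingHom.congr_fun i1 y⟩⟩⟩

end Vale.Agent.P024.H555
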