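import Vale.Agent.P024.H358.Closed
import Vale.Agent.P024.ALL.Any
import Vale.Agent.P024.H555.Hom

/-! Q1 in the wording of this folder, with an arbitrary Galois extension `E₁ / F₁`. -/

namespace Vale.Agent.P024.H555

universe u

theorem SolvablyClosed.eq_bot {E : Type u} [Field E] (hE : SolvablyClosed E)
    (M : IntermediateField E (AlgebraicClosure E)) (hM : IsAbelianGalois E M) : M = ⊥ := by
  have h := hE M (fun g h => hM.is_comm.comm g h)
  rw [eq_bot_iff]
  intro x hx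
  obtain ⟨y, hy⟩ := h ⟨x, hx⟩
  rw [IntermediateField.mem_bot]
  exact ⟨y, congrArg Subtype.val hy⟩

theorem main {F₁ E₁ F₂ E₂ : Type*} [Field F₁] [NumberField F₁] [Field E₁]
    [Algebra F₁ E₁] [IsGalois F₁ E₁] [Field F₂] [NumberField F₂] [Field E₂] [Algebra F₂ E₂]
    [IsGalois F₂ E₂] (h₂ : SolvablyClosed E₂)
    (α : (E₁ ≃ₐ[F₁] E₁) →* (E₂ ≃ₐ[F₂] E₂)) (hα : Continuous α) (hopen : IsOpen (Set.range α)) :
    ∃! j : E₂ →+* E₁, Induces α j := by
  have hc₂ : CharZero E₂ := charZero_of_injective_algebraMap (algebraMap F₂ E₂).injective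
  exact Vale.Agent.P024.ALL.q1_any
    (Vale.Agent.P024.solvablyClosed_of_isAbelianGalois h₂.eq_bot) α hα hopen

end Vale.Agent.P024.H555
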